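import Vale.Agent.P358.MathlibUsed
import Vale.Agent.P358.Defs
import Vale.Agent.P358.DefsBin

set_option autoImplicit false

namespace Vale.Agent.P358

open Matrix
open scoped ComplexOrder

/-- Finite ensembles of states: the state `ρ a` has the probability `w a`. -/
structure IsEnsemble {ι : Type} [Fintype ι] {m : ℕ} (w : Fin m → ℝ)
    (ρ : Fin m → Matrix ι ι ℂ) : Prop where
  nonneg : ∀ a, 0 ≤ w a
  sum_eq : ∑ a, w a = 1
  state : ∀ a, IsState (ρ a)

/-- The Holevo quantity of an ensemble of inputs of `Φ`. -/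
noncomputable def holevoQuantity {ι κ : Type} [Fintype κ] [DecidableEq κ]
    (Φ : Matrix ι ι ℂ →ₗ[ℂ] Matrix κ κ ℂ) {m : ℕ} (w : Fin m → ℝ) (ρ : Fin m → Matrix ι ι ℂ) : ℝ :=
  entropy (∑ a, (w a : ℂ) • Φ (ρ a)) - ∑ a, w a * entropy (Φ (ρ a))

/-- The excited-state population of the qubit `i` in an `n`-qubit state. -/
noncomputable def population {n : ℕ} (ρ : Matrix (Fin n → Fin 2) (Fin n → Fin 2) ℂ)
    (i : Fin n) : ℝ :=
  ∑ x, if x i = 1 then (ρ x x).re else 0

/-- The mean excited-state population of the qubit `i` in an ensemble of `n`-qubit states. -/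
noncomputable def meanPopulation {n m : ℕ} (w : Fin m → ℝ)
    (ρ : Fin m → Matrix (Fin n → Fin 2) (Fin n → Fin 2) ℂ) (i : Fin n) : ℝ :=
  ∑ a, w a * population (ρ a) i

/-- The Holevo quantities, for `n` uses of the qubit channel `Φ`, of the finite ensembles of
`n`-qubit inputs whose mean number of excitations is at most `n E`. -/
def energyHolevoSet (Φ : Matrix (Fin 2) (Fin 2) ℂ →ₗ[ℂ] Matrix (Fin 2) (Fin 2) ℂ) (n : ℕ)
    (E : ℝ) : Set ℝ :=
  {v | ∃ (m : ℕ) (w : Fin m → ℝ) (ρ : Fin m → Matrix (Fin n → Fin 2) (Fin n → Fin 2) ℂ),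
    IsEnsemble w ρ ∧ ∑ i, meanPopulation w ρ i ≤ n * E ∧
    v = holevoQuantity (tensorPower Φ n) w ρ}

/-- The classical capacity of `Φ` under the energy constraint `E` (mean number of excitations per
use at most `E`). -/
noncomputable def energyCapacity (Φ : Matrix (Fin 2) (Fin 2) ℂ →ₗ[ℂ] Matrix (Fin 2) (Fin 2) ℂ)
    (E : ℝ) : ℝ :=
  sSup {x | ∃ n : ℕ, 1 ≤ n ∧ x = sSup (energyHolevoSet Φ n E) / n}

/-- The Holevo quantity of the two-letter ensemble with mean excited population `q` for the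
generalized amplitude-damping channel. -/
noncomputable def phi (γ ν q : ℝ) : ℝ :=
  h2 ((1 - γ) * q + γ * ν) -
    h2 ((1 + √((1 - 2 * ((1 - γ) * q + γ * ν)) ^ 2 + 4 * (1 - γ) * (q * (1 - q)))) / 2)

end Vale.Agent.P358
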