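import Vale.Agent.P358.H463.Defs
import Vale.Agent.P358.H888.D

/-! The capacity of the generalized amplitude-damping channel with prescribed input
populations. -/

set_option autoImplicit false

namespace Vale.Agent.P358

open Matrix
open scoped ComplexOrder

namespace H463

theorem population_eq_pop {n : ℕ} (ρ : Matrix (Fin n → Fin 2) (Fin n → Fin 2) ℂ) (i : Fin n) :
    population ρ i = pop ρ i := rfl

theorem pop_smul {n : ℕ} (c : ℝ) (ρ : Matrix (Fin n → Fin 2) (Fin n → Fin 2) ℂ) (i : Fin n) :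
    pop ((c : ℂ) • ρ) i = c * pop ρ i := by
  unfold pop
  rw [Finset.mul_sum]
  refine Finset.sum_congr rfl fun x _ => ?_
  split_ifs
  · rw [Matrix.smul_apply, smul_eq_mul, Complex.re_ofReal_mul]
  · rw [mul_zero]

theorem pop_sum {n m : ℕ} (ρ : Fin m → Matrix (Fin n → Fin 2) (Fin n → Fin 2) ℂ) (i : Fin n) :
    pop (∑ a, ρ a) i = ∑ a, pop (ρ a) i := by
  unfold pop
  rw [Finset.sum_comm]
  refine Finset.sum_congr rfl fun x _ => ?_
  split_ifs
  · rw [Matrix.sum_apply, Complex.re_sum]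
  · simp

/-- The single-letter bound with the population. -/
theorem letter_le {γ ν : ℝ} (hγ : γ ∈ Set.Icc (0:ℝ) 1) (hν : ν ∈ Set.Icc (0:ℝ) 1)
    {α : Type} [Fintype α] (p q : α → ℝ) (hp : ∀ a, 0 ≤ p a) (hq : ∀ a, 0 ≤ q a)
    (hsum : ∑ a, (p a + q a) = 1) :
    Real.negMulLog ((1 - γ) * (∑ a, q a) + γ * ν) +
        Real.negMulLog (1 - ((1 - γ) * (∑ a, q a) + γ * ν)) -
        ∑ a, (eta2 (p a + q a) (((1 - γ * ν) * p a + γ * (1 - ν) * q a) *
          (γ * ν * p a + (1 - γ * (1 - ν)) * q a) - (1 - γ) * (p a * q a)) -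
          Real.negMulLog (p a + q a)) ≤ fval γ ν (∑ a, q a) * Real.log 2 := by
  have h1 := outDet_jensen hγ hν Finset.univ p q (fun a _ => hp a) (fun a _ => hq a) hsum
  have h2 : ∑ a, p a = 1 - ∑ a, q a := by
    rw [Finset.sum_add_distrib] at hsum
    linarith
  rw [h2] at h1
  have h3 : Real.log 2 ≠ 0 := (Real.log_pos one_lt_two).ne'
  unfold fval
  rw [div_mul_cancel₀ _ h3]
  unfold outDet at h1 ⊢
  linarith

/-- **The induction** with the populations. -/
theorem family_bound' {γ ν : ℝ} (hγ : γ ∈ Set.Icc (0:ℝ) 1) (hν : ν ∈ Set.Icc (0:ℝ) 1) (n : ℕ) :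
    ∀ {α : Type} [Fintype α] (X : α → Matrix (Fin n → Fin 2) (Fin n → Fin 2) ℂ),
      (∀ a, (X a).PosSemidef) → ∑ a, (X a).trace.re = 1 →
      ∑ i, (Real.negMulLog ((1-γ) * (∑ a, pop (X a) i) + γ*ν) +
          Real.negMulLog (1 - ((1-γ) * (∑ a, pop (X a) i) + γ*ν))) -
        ∑ a, (vN (tensorPower (gadc γ ν) n (X a)) - Real.negMulLog (X a).trace.re) ≤
      (∑ i, fval γ ν (∑ a, pop (X a) i)) * Real.log 2 := by
  induction n with
  | zero =>
    intro α _ X hX _
    have h : ∀ a, vN (tensorPower (gadc γ ν) 0 (X a)) - Real.negMulLog (X a).trace.re = 0 := by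
      intro a
      rw [vN_of_unique (tensorPower_posSemidef hγ hν 0 (hX a)), trace_tensorPower, sub_self]
    simp [h]
  | succ n ih =>
    intro α _ X hX hsum
    set P := fun a => ((X a).submatrix (splitE n).symm (splitE n).symm).toBlocks₁₁ with hP
    set Q := fun a => ((X a).submatrix (splitE n).symm (splitE n).symm).toBlocks₂₂ with hQ
    have hPpos : ∀ a, (P a).PosSemidef := fun a => ((hX a).submatrix _).submatrix Sum.inl
    have hQpos : ∀ a, (Q a).PosSemidef := fun a => ((hX a).submatrix _).submatrix Sum.inr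
    have htr : ∀ a, (X a).trace.re = (P a).trace.re + (Q a).trace.re := fun a => trace_split (X a)
    have hp0 : ∀ a, pop (X a) 0 = (Q a).trace.re := fun a => pop_zero_split (X a)
    have hps : ∀ a i, pop (X a) (Fin.succ i) = pop (P a) i + pop (Q a) i :=
      fun a i => pop_succ_split (X a) i
    have hsum' : ∑ a, ((P a).trace.re + (Q a).trace.re) = 1 := by
      rw [← hsum]
      exact Finset.sum_congr rfl fun a _ => (htr a).symm
    -- the family of blocks
    have h1 := ih (α := α ⊕ α) (Sum.elim P Q)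
      (by rintro (a | a); exacts [hPpos a, hQpos a])
      (by
        rw [Fintype.sum_sum_type]
        simp only [Sum.elim_inl, Sum.elim_inr]
        rw [← Finset.sum_add_distrib]
        exact hsum')
    simp only [Fintype.sum_sum_type, Sum.elim_inl, Sum.elim_inr] at h1
    -- the single letter bound
    have h2 := letter_le hγ hν (fun a => (P a).trace.re) (fun a => (Q a).trace.re)
      (fun a => trace_re_nonneg (hPpos a)) (fun a => trace_re_nonneg (hQpos a)) hsum'
    -- the step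
    have h3 : ∀ a, _ ≤ vN (tensorPower (gadc γ ν) (n+1) (X a)) := fun a => vN_step hγ hν (hX a)
    have h4 := Finset.sum_le_sum fun a (_ : a ∈ Finset.univ) => h3 a
    rw [Fin.sum_univ_succ, Fin.sum_univ_succ]
    simp only [hp0, hps]
    rw [add_mul]
    simp only [Finset.sum_sub_distrib, Finset.sum_add_distrib] at h1 h2 h4 ⊢
    simp only [htr]
    simp only [hP, hQ] at *
    linarith

/-- The Holevo quantity of every ensemble is at most the sum of the single-letter values at the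
mean populations. -/
theorem holevoQuantity_le {γ ν : ℝ} (hγ : γ ∈ Set.Icc (0:ℝ) 1) (hν : ν ∈ Set.Icc (0:ℝ) 1)
    (n : ℕ) {m : ℕ} {w : Fin m → ℝ} {ρ : Fin m → Matrix (Fin n → Fin 2) (Fin n → Fin 2) ℂ}
    (h : IsEnsemble w ρ) :
    holevoQuantity (tensorPower (gadc γ ν) n) w ρ ≤ ∑ i, fval γ ν (meanPopulation w ρ i) := by
  obtain ⟨hw, hw1, hρ⟩ := h
  have hl := log_two_pos
  have hst : IsState (∑ a, (w a : ℂ) • ρ a) := isState_sum hw hw1 hρ
  have hw' : ∀ a, (0 : ℂ) ≤ (w a : ℂ) := fun a => by exact_mod_cast hw a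
  have hXpos : ∀ a, ((w a : ℂ) • ρ a).PosSemidef := fun a => (hρ a).1.smul (hw' a)
  have htr : ∀ a, ((w a : ℂ) • ρ a).trace.re = w a := by
    intro a
    rw [trace_smul, (hρ a).2]
    simp
  have h1 := family_bound' hγ hν n (fun a => (w a : ℂ) • ρ a) hXpos (by simp only [htr]; exact hw1)
  simp only [htr] at h1
  have h2 : ∀ a, vN (tensorPower (gadc γ ν) n ((w a : ℂ) • ρ a)) - Real.negMulLog (w a) =
      w a * vN (tensorPower (gadc γ ν) n (ρ a)) := by
    intro a
    rw [map_smul, vN_smul (tensorPower_posSemidef hγ hν n (hρ a).1) (hw a), trace_tensorPower,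
      (hρ a).2]
    simp
  simp only [h2] at h1
  have h3 := entropy_T_le γ ν n hst (tensorPower_isState hγ hν n hst)
  have h4 : ∀ i : Fin n, (∑ x, if x i = 1 then ((∑ a, (w a : ℂ) • ρ a) x x).re else 0) =
      ∑ a, pop ((w a : ℂ) • ρ a) i := fun i => pop_sum (fun a => (w a : ℂ) • ρ a) i
  simp only [h4] at h3
  have h5 : ∑ a, (w a : ℂ) • tensorPower (gadc γ ν) n (ρ a) =
      tensorPower (gadc γ ν) n (∑ a, (w a : ℂ) • ρ a) := by
    rw [map_sum]
    simp only [map_smul]
  have h7 : ∀ i, meanPopulation w ρ i = ∑ a, pop ((w a : ℂ) • ρ a) i := by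
    intro i
    unfold meanPopulation
    exact Finset.sum_congr rfl fun a _ => by rw [pop_smul, population_eq_pop]
  unfold holevoQuantity
  rw [h5]
  simp only [h7]
  have h6 : ∑ a, w a * entropy (tensorPower (gadc γ ν) n (ρ a)) =
      (∑ a, w a * vN (tensorPower (gadc γ ν) n (ρ a))) / Real.log 2 := by
    rw [Finset.sum_div]
    refine Finset.sum_congr rfl fun a _ => ?_
    rw [entropy_eq_vN, mul_div_assoc]
  rw [h6]
  simp only [eta_eq, ← add_div, ← Finset.sum_div] at h3
  refine (sub_le_sub_right h3 _).trans ?_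
  rw [← sub_div, div_le_iff₀ hl]
  linarith

/-- mean populations lie in `[0, 1]` -/
theorem pop_mem {n : ℕ} {ρ : Matrix (Fin n → Fin 2) (Fin n → Fin 2) ℂ} (hρ : IsState ρ)
    (i : Fin n) : pop ρ i ∈ Set.Icc (0 : ℝ) 1 := by
  have hd : ∀ x, 0 ≤ (ρ x x).re := fun x => (Complex.nonneg_iff.1 (hρ.1.diag_nonneg (i := x))).1
  constructor
  · refine Finset.sum_nonneg fun x _ => ?_
    split_ifs
    exacts [hd x, le_rfl]
  · have h1 := congrArg Complex.re hρ.2
    rw [Matrix.trace, Complex.re_sum, Complex.one_re] at h1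
    rw [← h1]
    refine Finset.sum_le_sum fun x _ => ?_
    split_ifs
    exacts [le_rfl, hd x]

theorem meanPopulation_mem {n m : ℕ} {w : Fin m → ℝ}
    {ρ : Fin m → Matrix (Fin n → Fin 2) (Fin n → Fin 2) ℂ} (h : IsEnsemble w ρ) (i : Fin n) :
    meanPopulation w ρ i ∈ Set.Icc (0 : ℝ) 1 := by
  have h1 : ∀ a, population (ρ a) i ∈ Set.Icc (0 : ℝ) 1 := fun a => pop_mem (h.state a) i
  unfold meanPopulation
  refine ⟨Finset.sum_nonneg fun a _ => mul_nonneg (h.nonneg a) (h1 a).1, ?_⟩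
  rw [← h.sum_eq]
  exact Finset.sum_le_sum fun a _ => mul_le_of_le_one_right (h.nonneg a) (h1 a).2

/-- the single-letter value is concave in the population -/
theorem fval_concave {γ ν : ℝ} (hγ : γ ∈ Set.Icc (0:ℝ) 1) (hν : ν ∈ Set.Icc (0:ℝ) 1) :
    ConcaveOn ℝ (Set.Icc (0:ℝ) 1) (fval γ ν) := by
  refine ⟨convex_Icc 0 1, ?_⟩
  intro x hx y hy a b ha hb hab
  simp only [smul_eq_mul]
  have hl := log_two_pos
  have ht : ∀ q ∈ Set.Icc (0:ℝ) 1, (1 - γ) * q + γ * ν ∈ Set.Icc (0:ℝ) 1 := by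
    intro q hq
    obtain ⟨g0, g1⟩ := hγ
    obtain ⟨n0, n1⟩ := hν
    constructor
    · have := mul_nonneg (sub_nonneg.2 g1) hq.1
      have := mul_nonneg g0 n0
      linarith
    · have h1 : (1 - γ) * q ≤ (1 - γ) * 1 := mul_le_mul_of_nonneg_left hq.2 (by linarith)
      have h2 : γ * ν ≤ γ * 1 := mul_le_mul_of_nonneg_left n1 g0
      linarith
  have hc := Real.concaveOn_negMulLog
  have e1 : (1 - γ) * (a * x + b * y) + γ * ν =
      a * ((1 - γ) * x + γ * ν) + b * ((1 - γ) * y + γ * ν) := by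
    linear_combination (-(γ * ν)) * hab
  have e2 : 1 - ((1 - γ) * (a * x + b * y) + γ * ν) =
      a * (1 - ((1 - γ) * x + γ * ν)) + b * (1 - ((1 - γ) * y + γ * ν)) := by
    rw [e1]
    linear_combination (-1 : ℝ) * hab
  have h1 := hc.2 (ht x hx).1 (ht y hy).1 ha hb hab
  have h2 := hc.2 (sub_nonneg.2 (ht x hx).2) (sub_nonneg.2 (ht y hy).2) ha hb hab
  simp only [smul_eq_mul] at h1 h2
  rw [← e1] at h1
  rw [← e2] at h2
  have h3 := outDet_jensen hγ hν (Finset.univ : Finset (Fin 2))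
    ![a * (1 - x), b * (1 - y)] ![a * x, b * y]
    (by
      intro i _
      fin_cases i
      · exact mul_nonneg ha (sub_nonneg.2 hx.2)
      · exact mul_nonneg hb (sub_nonneg.2 hy.2))
    (by
      intro i _
      fin_cases i
      · exact mul_nonneg ha hx.1
      · exact mul_nonneg hb hy.1)
    (by
      rw [Fin.sum_univ_two]
      simp
      linear_combination hab)
  simp only [Fin.sum_univ_two, Matrix.cons_val_zero, Matrix.cons_val_one] at h3
  have s : ∀ c z : ℝ, 0 ≤ c → eta2 (c * (1 - z) + c * z) (outDet γ ν (c * (1 - z)) (c * z)) -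
      Real.negMulLog (c * (1 - z) + c * z) = c * eta2 1 (outDet γ ν (1 - z) z) := by
    intro c z hc
    have h9 := eta2_scale (T := 1) (D := outDet γ ν (1 - z) z) hc
    have h10 : c * (1 - z) + c * z = c * 1 := by ring
    have h11 : outDet γ ν (c * (1 - z)) (c * z) = c ^ 2 * outDet γ ν (1 - z) z := by
      unfold outDet
      ring
    rw [h10, h11, h9, mul_one]
    ring
  have e3 : a * (1 - x) + b * (1 - y) = 1 - (a * x + b * y) := by linear_combination hab
  rw [s a x ha, s b y hb, e3] at h3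
  unfold fval
  rw [← mul_div_assoc, ← mul_div_assoc, ← add_div]
  refine div_le_div_of_nonneg_right ?_ hl.le
  linarith

/-! ### product ensembles -/

section prod

variable {ι κ : Type} [Fintype ι] [DecidableEq ι] [Fintype κ] [DecidableEq κ]

theorem prod_ensemble (Φ : Matrix ι ι ℂ →ₗ[ℂ] Matrix κ κ ℂ)
    (hΦ : ∀ ρ, IsState ρ → IsState (Φ ρ)) {n m : ℕ} (w : Fin n → Fin m → ℝ)
    (ρ : Fin n → Fin m → Matrix ι ι ℂ) (h : ∀ i, IsEnsemble (w i) (ρ i)) :
    ∃ (W : Fin (m ^ n) → ℝ) (R : Fin (m ^ n) → Matrix (Fin n → ι) (Fin n → ι) ℂ),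
      IsEnsemble W R ∧
      holevoQuantity (tensorPower Φ n) W R = ∑ i, holevoQuantity Φ (w i) (ρ i) ∧
      ∑ b, (W b : ℂ) • R b = prodM fun i => ∑ a, (w i a : ℂ) • ρ i a := by
  let E : (Fin n → Fin m) ≃ Fin (m ^ n) := finFunctionFinEquiv
  have hsum1 : ∑ a : Fin n → Fin m, ∏ i, w i (a i) = 1 := by
    have h1 := Finset.prod_univ_sum (fun _ : Fin n => (Finset.univ : Finset (Fin m)))
      (fun i j => w i j)
    rw [Fintype.piFinset_univ] at h1
    rw [← h1]
    exact Finset.prod_eq_one fun i _ => (h i).sum_eq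
  refine ⟨fun b => ∏ i, w i (E.symm b i), fun b => prodM (fun i => ρ i (E.symm b i)),
    ⟨fun b => Finset.prod_nonneg fun i _ => (h i).nonneg _, ?_,
      fun b => prodM_isState fun i => (h i).state _⟩, ?_, ?_⟩
  · rw [Equiv.sum_comp E.symm (fun a => ∏ i, w i (a i))]
    exact hsum1
  · have havg : ∑ b, ((∏ i, w i (E.symm b i) : ℝ) : ℂ) •
        tensorPower Φ n (prodM (fun i => ρ i (E.symm b i))) =
        prodM (fun i : Fin n => ∑ a, (w i a : ℂ) • Φ (ρ i a)) := by
      rw [Equiv.sum_comp E.symm (fun a : Fin n → Fin m => ((∏ i, w i (a i) : ℝ) : ℂ) •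
        tensorPower Φ n (prodM (fun i => ρ i (a i))))]
      ext y y'
      rw [prodM_apply, Matrix.sum_apply]
      simp only [tensorPower_prodM, Matrix.smul_apply, prodM_apply, Matrix.sum_apply, smul_eq_mul]
      rw [Finset.prod_univ_sum, Fintype.piFinset_univ]
      refine Finset.sum_congr rfl fun a _ => ?_
      rw [Finset.prod_mul_distrib]
      push_cast
      rfl
    have hent : ∑ b, (∏ i, w i (E.symm b i)) *
        entropy (tensorPower Φ n (prodM (fun i => ρ i (E.symm b i)))) =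
        ∑ k, ∑ a, w k a * entropy (Φ (ρ k a)) := by
      rw [Equiv.sum_comp E.symm (fun a : Fin n → Fin m => (∏ i, w i (a i)) *
        entropy (tensorPower Φ n (prodM (fun i => ρ i (a i)))))]
      have h1 : ∀ a : Fin n → Fin m, (∏ i, w i (a i)) *
          entropy (tensorPower Φ n (prodM (fun i => ρ i (a i)))) =
          ∑ k, ∏ i, (if i = k then w i (a i) * entropy (Φ (ρ i (a i))) else w i (a i)) := by
        intro a
        rw [tensorPower_prodM, entropy_prodM (fun i => hΦ _ ((h i).state _)), Finset.mul_sum]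
        refine Finset.sum_congr rfl fun k _ => ?_
        have h5 : ∀ i, (if i = k then w i (a i) * entropy (Φ (ρ i (a i))) else w i (a i)) =
            w i (a i) * (if i = k then entropy (Φ (ρ i (a i))) else 1) := by
          intro i
          split_ifs
          · rfl
          · rw [mul_one]
        simp_rw [h5]
        rw [Finset.prod_mul_distrib, Finset.prod_ite_eq' Finset.univ k]
        simp
      simp_rw [h1]
      rw [Finset.sum_comm]
      refine Finset.sum_congr rfl fun k _ => ?_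
      have h3 := Finset.prod_univ_sum (fun _ : Fin n => (Finset.univ : Finset (Fin m)))
        (fun i j => if i = k then w i j * entropy (Φ (ρ i j)) else w i j)
      rw [Fintype.piFinset_univ] at h3
      rw [← h3, Finset.prod_eq_single k]
      · simp
      · intro i _ hik
        simp [hik, (h i).sum_eq]
      · intro h
        exact absurd (Finset.mem_univ k) h
    unfold holevoQuantity
    rw [havg, entropy_prodM (fun i => isState_sum (h i).nonneg (h i).sum_eq
      fun a => hΦ _ ((h i).state a)), hent, Finset.sum_sub_distrib]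
  · rw [Equiv.sum_comp E.symm (fun a : Fin n → Fin m => ((∏ i, w i (a i) : ℝ) : ℂ) •
      prodM (fun i => ρ i (a i)))]
    ext y y'
    rw [prodM_apply, Matrix.sum_apply]
    simp only [Matrix.smul_apply, prodM_apply, Matrix.sum_apply, smul_eq_mul]
    rw [Finset.prod_univ_sum, Fintype.piFinset_univ]
    refine Finset.sum_congr rfl fun a _ => ?_
    rw [Finset.prod_mul_distrib]
    push_cast
    rfl

end prod

/-- the populations of a product state -/
theorem pop_prodM {n : ℕ} (σ : Fin n → Matrix (Fin 2) (Fin 2) ℂ) (h : ∀ i, (σ i).trace = 1)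
    (i : Fin n) : pop (prodM σ) i = (σ i 1 1).re := by
  have h1 : pop (prodM σ) i =
      (∑ x : Fin n → Fin 2, ∏ j, (if j = i then (if x j = 1 then σ j (x j) (x j) else 0)
        else σ j (x j) (x j))).re := by
    unfold pop
    rw [Complex.re_sum]
    refine Finset.sum_congr rfl fun x _ => ?_
    by_cases hx : x i = 1
    · rw [if_pos hx, prodM_apply]
      congr 1
      refine Finset.prod_congr rfl fun j _ => ?_
      by_cases hj : j = i
      · subst hj; rw [if_pos rfl, if_pos hx]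
      · rw [if_neg hj]
    · rw [if_neg hx, Finset.prod_eq_zero (Finset.mem_univ i), Complex.zero_re]
      rw [if_pos rfl, if_neg hx]
  have h2 := Finset.prod_univ_sum (fun _ : Fin n => (Finset.univ : Finset (Fin 2)))
    (fun j c => if j = i then (if c = 1 then σ j c c else 0) else σ j c c)
  rw [Fintype.piFinset_univ] at h2
  rw [h1, ← h2, Finset.prod_eq_single i]
  · simp
  · intro j _ hj
    simp only [if_neg hj]
    have := h j
    rwa [Matrix.trace] at this
  · intro hi
    exact absurd (Finset.mem_univ i) hi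

/-- the two-letter ensemble with population `q` -/
theorem letter_ensemble {γ ν : ℝ} (hγ : γ ∈ Set.Icc (0:ℝ) 1) (hν : ν ∈ Set.Icc (0:ℝ) 1) {q : ℝ}
    (hq : q ∈ Set.Icc (0:ℝ) 1) :
    ∃ (w : Fin 2 → ℝ) (ρ : Fin 2 → Matrix (Fin 2) (Fin 2) ℂ), IsEnsemble w ρ ∧
      holevoQuantity (gadc γ ν) w ρ = fval γ ν q ∧ ((∑ a, (w a : ℂ) • ρ a) 1 1).re = q := by
  have hp : (0:ℝ) ≤ 1 - q := sub_nonneg.2 hq.2
  have hst : ∀ b, st b (1 - q) q = psi b (1 - q) q := by
    intro b
    have h1 : (1 : ℝ) - q + q = 1 := by ring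
    unfold st
    rw [h1, if_neg one_ne_zero]
    simp
  have hs : ∀ b, IsState (psi b (1 - q) q) := fun b => hst b ▸ st_isState b hp hq.1
  set t : ℝ := (1 - γ) * q + γ * ν with ht
  have hl := log_two_pos
  have hvN : ∀ b, vN (gadc γ ν (psi b (1 - q) q)) = eta2 1 (outDet γ ν (1 - q) q) := by
    intro b
    have h1 := vN_gadc_st hγ hν b hp hq.1
    have h2 : (1 : ℝ) - q + q = 1 := by ring
    rw [hst, h2, one_mul, Real.negMulLog_one, sub_zero] at h1
    exact h1
  refine ⟨![1/2, 1/2], ![psi true (1 - q) q, psi false (1 - q) q], ⟨?_, ?_, ?_⟩, ?_, ?_⟩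
  · intro a
    fin_cases a <;> norm_num
  · rw [Fin.sum_univ_two]
    norm_num
  · intro a
    fin_cases a
    · exact hs true
    · exact hs false
  · have havg : ∑ a, ((![1/2, 1/2] : Fin 2 → ℝ) a : ℂ) •
        gadc γ ν ((![psi true (1 - q) q, psi false (1 - q) q] : Fin 2 → _) a) =
        diagonal (fun j => ((![1 - t, t] j : ℝ) : ℂ)) := by
      rw [Fin.sum_univ_two]
      simp only [Matrix.cons_val_zero, Matrix.cons_val_one]
      rw [gadc_psi, gadc_psi]
      ext i j
      fin_cases i <;> fin_cases j <;> simp [ht] <;> ring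
    have ht0 : 0 ≤ t := by
      have := mul_nonneg (sub_nonneg.2 hγ.2) hq.1
      have := mul_nonneg hγ.1 hν.1
      linarith
    have ht1 : 0 ≤ 1 - t := by
      have h1 : (1 - γ) * q ≤ (1 - γ) * 1 :=
        mul_le_mul_of_nonneg_left hq.2 (by linarith [hγ.2])
      have h2 : γ * ν ≤ γ * 1 := mul_le_mul_of_nonneg_left hν.2 hγ.1
      linarith
    have h1 : holevoQuantity (gadc γ ν) ![1/2, 1/2]
        ![psi true (1 - q) q, psi false (1 - q) q] * Real.log 2 = fval γ ν q * Real.log 2 := by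
      unfold holevoQuantity fval
      rw [div_mul_cancel₀ _ hl.ne', sub_mul, havg, single_entropy_vN, vN_diagonal]
      · rw [Fin.sum_univ_two, Fin.sum_univ_two, add_mul, mul_assoc, mul_assoc, single_entropy_vN,
          single_entropy_vN]
        simp only [Matrix.cons_val_zero, Matrix.cons_val_one]
        rw [hvN, hvN]
        ring
      · intro i
        fin_cases i
        · exact ht1
        · exact ht0
    exact mul_right_cancel₀ hl.ne' h1
  · rw [Fin.sum_univ_two]
    simp [psi]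
    ring

/-- every population profile is attained by a product ensemble -/
theorem attained {γ ν : ℝ} (hγ : γ ∈ Set.Icc (0:ℝ) 1) (hν : ν ∈ Set.Icc (0:ℝ) 1) {n : ℕ}
    (q : Fin n → ℝ) (hq : ∀ i, q i ∈ Set.Icc (0:ℝ) 1) :
    ∃ (m : ℕ) (w : Fin m → ℝ) (ρ : Fin m → Matrix (Fin n → Fin 2) (Fin n → Fin 2) ℂ),
      IsEnsemble w ρ ∧ (∀ i, meanPopulation w ρ i = q i) ∧
      holevoQuantity (tensorPower (gadc γ ν) n) w ρ = ∑ i, fval γ ν (q i) := by
  choose w ρ he hv hpop using fun i => letter_ensemble hγ hν (hq i)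
  obtain ⟨W, R, hE, hval, havg⟩ :=
    prod_ensemble (gadc γ ν) (fun ρ hρ => gadc_isState hγ hν hρ) w ρ he
  refine ⟨_, W, R, hE, fun i => ?_, ?_⟩
  · have h1 : meanPopulation W R i = pop (∑ b, (W b : ℂ) • R b) i := by
      rw [pop_sum]
      unfold meanPopulation
      exact Finset.sum_congr rfl fun a _ => by rw [pop_smul, population_eq_pop]
    rw [h1, havg, pop_prodM _ (fun i => (isState_sum (he i).nonneg (he i).sum_eq (he i).state).2)]
    exact hpop i
  · rw [hval]
    exact Finset.sum_congr rfl fun i _ => hv i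

theorem phi_eq (γ ν : ℝ) : phi γ ν = fval γ ν := funext fun q => (fval_eq γ ν q).symm

/-- **The capacity with prescribed populations.** -/
theorem isGreatest_profile {γ ν : ℝ} (hγ : γ ∈ Set.Icc (0:ℝ) 1) (hν : ν ∈ Set.Icc (0:ℝ) 1) {n : ℕ}
    (q : Fin n → ℝ) (hq : ∀ i, q i ∈ Set.Icc (0:ℝ) 1) :
    IsGreatest {v | ∃ (m : ℕ) (w : Fin m → ℝ)
      (ρ : Fin m → Matrix (Fin n → Fin 2) (Fin n → Fin 2) ℂ),
      IsEnsemble w ρ ∧ (∀ i, meanPopulation w ρ i = q i) ∧
      v = holevoQuantity (tensorPower (gadc γ ν) n) w ρ} (∑ i, phi γ ν (q i)) := by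
  constructor
  · obtain ⟨m, w, ρ, h1, h2, h3⟩ := attained hγ hν q hq
    exact ⟨m, w, ρ, h1, h2, by rw [h3, phi_eq]⟩
  · rintro v ⟨m, w, ρ, h1, h2, rfl⟩
    have h3 := holevoQuantity_le hγ hν n h1
    simp only [h2] at h3
    rwa [phi_eq]

/-- **The capacity with an energy constraint.** -/
theorem isGreatest_energy {γ ν : ℝ} (hγ : γ ∈ Set.Icc (0:ℝ) 1) (hν : ν ∈ Set.Icc (0:ℝ) 1)
    {E : ℝ} (hE : 0 ≤ E) {c : ℝ} (hc : IsGreatest (phi γ ν '' Set.Icc 0 (min E 1)) c) (n : ℕ) :
    IsGreatest (energyHolevoSet (gadc γ ν) n E) (n * c) := by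
  obtain ⟨⟨q₀, hq₀, rfl⟩, hmax⟩ := hc
  have hq₀' : q₀ ∈ Set.Icc (0:ℝ) 1 := ⟨hq₀.1, hq₀.2.trans (min_le_right _ _)⟩
  constructor
  · obtain ⟨m, w, ρ, h1, h2, h3⟩ := attained hγ hν (n := n) (fun _ => q₀) (fun _ => hq₀')
    refine ⟨m, w, ρ, h1, ?_, ?_⟩
    · simp only [h2, Finset.sum_const, Finset.card_univ, Fintype.card_fin, nsmul_eq_mul]
      exact mul_le_mul_of_nonneg_left (hq₀.2.trans (min_le_left _ _)) (Nat.cast_nonneg n)
    · rw [h3, phi_eq]
      simp
  · rintro v ⟨m, w, ρ, h1, h2, rfl⟩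
    refine (holevoQuantity_le hγ hν n h1).trans ?_
    rcases Nat.eq_zero_or_pos n with rfl | hn
    · simp
    have hn' : (0:ℝ) < n := by exact_mod_cast hn
    -- Jensen
    have h3 := (fval_concave hγ hν).le_map_sum (t := (Finset.univ : Finset (Fin n)))
      (w := fun _ => (n : ℝ)⁻¹) (p := fun i => meanPopulation w ρ i)
      (fun _ _ => inv_nonneg.2 hn'.le) (by simp [hn'.ne'])
      (fun i _ => meanPopulation_mem h1 i)
    simp only [smul_eq_mul, ← Finset.mul_sum] at h3
    set Q : ℝ := (n : ℝ)⁻¹ * ∑ i, meanPopulation w ρ i with hQ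
    have hQ0 : 0 ≤ Q := mul_nonneg (inv_nonneg.2 hn'.le)
      (Finset.sum_nonneg fun i _ => (meanPopulation_mem h1 i).1)
    have hQ1 : Q ≤ 1 := by
      rw [hQ, inv_mul_le_iff₀ hn', mul_one]
      calc ∑ i, meanPopulation w ρ i ≤ ∑ _i : Fin n, (1:ℝ) :=
            Finset.sum_le_sum fun i _ => (meanPopulation_mem h1 i).2
        _ = n := by simp
    have hQE : Q ≤ E := by
      rw [hQ, inv_mul_le_iff₀ hn']
      exact h2
    have h4 : phi γ ν Q ≤ phi γ ν q₀ := hmax ⟨Q, ⟨hQ0, le_min hQE hQ1⟩, rfl⟩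
    rw [phi_eq] at h4 ⊢
    have h5 : (n : ℝ)⁻¹ * ∑ i, fval γ ν (meanPopulation w ρ i) ≤ fval γ ν q₀ := h3.trans h4
    rwa [inv_mul_le_iff₀ hn'] at h5

theorem exists_energy_max {γ ν : ℝ} {E : ℝ} (hE : 0 ≤ E) :
    ∃ c, IsGreatest (phi γ ν '' Set.Icc 0 (min E 1)) c := by
  rw [phi_eq]
  have hne : (Set.Icc (0:ℝ) (min E 1)).Nonempty := Set.nonempty_Icc.2 (le_min hE zero_le_one)
  exact (isCompact_Icc.image (continuous_fval γ ν)).exists_isGreatest (hne.image _)

/-- the energy-constrained capacity -/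
theorem energyCapacity_spec {γ ν : ℝ} (hγ : γ ∈ Set.Icc (0:ℝ) 1) (hν : ν ∈ Set.Icc (0:ℝ) 1)
    {E : ℝ} (hE : 0 ≤ E) :
    IsGreatest (phi γ ν '' Set.Icc 0 (min E 1)) (energyCapacity (gadc γ ν) E) ∧
      ∀ n : ℕ, IsGreatest (energyHolevoSet (gadc γ ν) n E) (n * energyCapacity (gadc γ ν) E) := by
  obtain ⟨c, hc⟩ := exists_energy_max (γ := γ) (ν := ν) hE
  have h1 : ∀ n : ℕ, IsGreatest (energyHolevoSet (gadc γ ν) n E) (n * c) :=
    fun n => isGreatest_energy hγ hν hE hc n
  have h2 : {x | ∃ n : ℕ, 1 ≤ n ∧ x = sSup (energyHolevoSet (gadc γ ν) n E) / n} = {c} := by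
    ext x
    constructor
    · rintro ⟨n, hn, rfl⟩
      have hn' : (n : ℝ) ≠ 0 := by
        have : n ≠ 0 := by omega
        exact_mod_cast this
      rw [(h1 n).csSup_eq, mul_div_cancel_left₀ _ hn']
      rfl
    · rintro rfl
      exact ⟨1, le_rfl, by rw [(h1 1).csSup_eq]; simp⟩
  have h3 : energyCapacity (gadc γ ν) E = c := by
    unfold energyCapacity
    rw [h2, csSup_singleton]
  rw [h3]
  exact ⟨hc, h1⟩

end H463

end Vale.Agent.P358
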